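import Mathlib
import Vale.Agent.P050.Kneser
import Vale.Agent.P050.Closure
import Vale.Agent.P050.Cograph
import Vale.Agent.P050.Circ
import Vale.Agent.P050.OddCycle
import Vale.Agent.P050.Comp
import Vale.Agent.P050.Prod

namespace Vale.Agent.Results.P050.A000000000_Combined7

open Vale.Agent.P050

/-- The class of Sidorenko hosts (graphs `G` with `t(H,G) ≥ p(G)^{e(H)}` for every bipartite `H`)
contains all generalised Kneser graphs, all cographs, all graphs on discrete tori in which adjacency is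
an upward closed condition on the vector of circular distances of the coordinates, in particular all odd
cycles; it is closed under disjoint unions, joins, tensor products, disjunctive products and under the
composition `compGraph` with a discrete torus. -/
theorem result.{u, v} :
    (∀ n k s : ℕ, k ≤ n → SidorenkoHost.{u} (genKneser n k s)) ∧
    (∀ (W : Type v) [Fintype W] [DecidableEq W] [Nonempty W] (G : SimpleGraph W),
      IsCograph G → SidorenkoHost.{u} G) ∧
    (∀ (W1 W2 : Type v) [Fintype W1] [Fintype W2] [Nonempty W1] [Nonempty W2]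
      (G1 : SimpleGraph W1) (G2 : SimpleGraph W2),
      SidorenkoHost.{u} G1 → SidorenkoHost.{u} G2 →
        SidorenkoHost.{u} (G1 ⊕g G2) ∧
          SidorenkoHost.{u} ((G1 ⊕g G2) ⊔ completeBipartiteGraph W1 W2)) ∧
    (∀ (n : ℕ) (q : Fin n → ℕ) (U : Set (Fin n → ℕ)), IsUpperSet U →
      SidorenkoHost.{u} (torusGraph n q U)) ∧
    (∀ k : ℕ, SidorenkoHost.{u} (SimpleGraph.cycleGraph (2 * k + 3))) ∧
    (∀ (W : Type v) [Fintype W] [Nonempty W] (G : SimpleGraph W) (n : ℕ) (q : Fin n → ℕ)
      (U0 U1 : Set (Fin n → ℕ)), SidorenkoHost.{u} G → IsUpperSet U0 → IsUpperSet U1 → U1 ⊆ U0 →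
      (0 : Fin n → ℕ) ∉ U1 → SidorenkoHost.{u} (compGraph G n q U0 U1)) ∧
    (∀ (W1 W2 : Type v) [Fintype W1] [Fintype W2] [Nonempty W1] [Nonempty W2]
      (G1 : SimpleGraph W1) (G2 : SimpleGraph W2),
      SidorenkoHost.{u} G1 → SidorenkoHost.{u} G2 →
        SidorenkoHost.{u} (tensorProd G1 G2) ∧ SidorenkoHost.{u} (disjProd G1 G2)) :=
  ⟨fun n k s hk _ _ H hH => genKneser_sidorenko n k s hk H hH,
   fun _ _ _ _ G hG _ _ H hH => cograph_sidorenko H hH G hG,
   fun _ _ _ _ _ _ G1 G2 h1 h2 => closure_sum_join G1 G2 h1 h2,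
   fun n q U hU => torusGraph_sidorenkoHost n q U hU,
   fun k => oddCycle_sidorenkoHost k,
   fun _ _ _ G n q U0 U1 hG hU0 hU1 h10 hz => compGraph_sidorenkoHost G hG n q U0 U1 hU0 hU1 h10 hz,
   fun _ _ _ _ _ _ G1 G2 h1 h2 => prod_sidorenkoHost G1 G2 h1 h2⟩

end Vale.Agent.Results.P050.A000000000_Combined7
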