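import Mathlib
import Vale.Agent.P050.Kneser
import Vale.Agent.P050.Closure
import Vale.Agent.P050.Cograph
import Vale.Agent.P050.Circ
import Vale.Agent.P050.OddCycle
import Vale.Agent.P050.Comp

namespace Vale.Agent.Results.P050.A00000000_Combined6

open Vale.Agent.P050

/-- The class of Sidorenko hosts (graphs `G` with `t(H,G) ≥ p(G)^{e(H)}` for every bipartite `H`)
contains all generalised Kneser graphs, all cographs, all graphs on discrete tori in which adjacency is
an upward closed condition on the vector of circular distances of the coordinates, in particular all odd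
cycles; it is closed under disjoint unions, under joins, and under the composition `compGraph` with a
discrete torus (which contains blow-ups and tensor and disjunctive products with complete graphs). -/
theorem result.{u, v} :
    (∀ n k s : ℕ, k ≤ n → SidorenkoHost.{u} (genKneser n k s)) ∧
    (∀ (W : Type v) [Fintype W] [DecidableEq W] [Nonempty W] (G : SimpleGraph W),
      IsCograph G → SidorenkoHost.{u} G) ∧
    (∀ (W1 W2 : Type v) [Fintype W1] [Fintype W2] [Nonempty W1] [Nonempty W2]
      (G1 : SimpleGraph W1) (G2 : SimpleGraph W2),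
      SidorenkoHost.{u} G1 → SidorenkoHost.{u} G2 →
        SidorenkoHost.{u} (G1 ⊕g G2) ∧
          SidorenkoHost.{u} ((G1 ⊕g G2) ⊔ completeBipartiteGraph W1 W2)) ∧
    (∀ (n : ℕ) (q : Fin n → ℕ) (U : Set (Fin n → ℕ)), IsUpperSet U →
      SidorenkoHost.{u} (torusGraph n q U)) ∧
    (∀ k : ℕ, SidorenkoHost.{u} (SimpleGraph.cycleGraph (2 * k + 3))) ∧
    (∀ (W : Type v) [Fintype W] [Nonempty W] (G : SimpleGraph W) (n : ℕ) (q : Fin n → ℕ)
      (U0 U1 : Set (Fin n → ℕ)), SidorenkoHost.{u} G → IsUpperSet U0 → IsUpperSet U1 → U1 ⊆ U0 →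
      (0 : Fin n → ℕ) ∉ U1 → SidorenkoHost.{u} (compGraph G n q U0 U1)) :=
  ⟨fun n k s hk _ _ H hH => genKneser_sidorenko n k s hk H hH,
   fun _ _ _ _ G hG _ _ H hH => cograph_sidorenko H hH G hG,
   fun _ _ _ _ _ _ G1 G2 h1 h2 => closure_sum_join G1 G2 h1 h2,
   fun n q U hU => torusGraph_sidorenkoHost n q U hU,
   fun k => oddCycle_sidorenkoHost k,
   fun _ _ _ G n q U0 U1 hG hU0 hU1 h10 hz => compGraph_sidorenkoHost G hG n q U0 U1 hU0 hU1 h10 hz⟩

end Vale.Agent.Results.P050.A00000000_Combined6
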