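import Mathlib
import Vale.Agent.P050.Kneser
import Vale.Agent.P050.Closure
import Vale.Agent.P050.Cograph
import Vale.Agent.P050.Circ
import Vale.Agent.P050.OddCycle

namespace Vale.Agent.Results.P050.A0000000_Combined5

open Vale.Agent.P050

/-- The class of Sidorenko hosts (graphs `G` with `t(H,G) ≥ p(G)^{e(H)}` for every bipartite `H`)
contains all generalised Kneser graphs, all cographs, all graphs on discrete tori in which adjacency is
an upward closed condition on the vector of circular distances of the coordinates, in particular all odd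
cycles, and it is closed under disjoint unions and under joins. -/
theorem result.{u, v} :
    (∀ n k s : ℕ, k ≤ n → SidorenkoHost.{u} (genKneser n k s)) ∧
    (∀ (W : Type v) [Fintype W] [DecidableEq W] [Nonempty W] (G : SimpleGraph W),
      IsCograph G → SidorenkoHost.{u} G) ∧
    (∀ (W1 W2 : Type v) [Fintype W1] [Fintype W2] [Nonempty W1] [Nonempty W2]
      (G1 : SimpleGraph W1) (G2 : SimpleGraph W2),
      SidorenkoHost.{u} G1 → SidorenkoHost.{u} G2 →
        SidorenkoHost.{u} (G1 ⊕g G2) ∧
          SidorenkoHost.{u} ((G1 ⊕g G2) ⊔ completeBipartiteGraph W1 W2)) ∧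
    (∀ (n : ℕ) (q : Fin n → ℕ) (U : Set (Fin n → ℕ)), IsUpperSet U →
      SidorenkoHost.{u} (torusGraph n q U)) ∧
    (∀ k : ℕ, SidorenkoHost.{u} (SimpleGraph.cycleGraph (2 * k + 3))) :=
  ⟨fun n k s hk _ _ H hH => genKneser_sidorenko n k s hk H hH,
   fun _ _ _ _ G hG _ _ H hH => cograph_sidorenko H hH G hG,
   fun _ _ _ _ _ _ G1 G2 h1 h2 => closure_sum_join G1 G2 h1 h2,
   fun n q U hU => torusGraph_sidorenkoHost n q U hU,
   fun k => oddCycle_sidorenkoHost k⟩

end Vale.Agent.Results.P050.A0000000_Combined5
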