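import Mathlib
import Vale.Agent.P050.Kneser
import Vale.Agent.P050.Closure
import Vale.Agent.P050.Cograph
import Vale.Agent.P050.Circ

namespace Vale.Agent.Results.P050.A000000_Combined4

open Vale.Agent.P050

/-- The class of Sidorenko hosts (graphs `G` with `t(H,G) ≥ p(G)^{e(H)}` for every bipartite `H`)
contains all generalised Kneser graphs, all cographs and all graphs on discrete tori in which adjacency is
an upward closed condition on the vector of circular distances of the coordinates, and it is closed under
disjoint unions and under joins. -/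
theorem result.{u, v} :
    (∀ n k s : ℕ, k ≤ n → SidorenkoHost.{u} (genKneser n k s)) ∧
    (∀ (W : Type v) [Fintype W] [DecidableEq W] [Nonempty W] (G : SimpleGraph W),
      IsCograph G → SidorenkoHost.{u} G) ∧
    (∀ (W1 W2 : Type v) [Fintype W1] [Fintype W2] [Nonempty W1] [Nonempty W2]
      (G1 : SimpleGraph W1) (G2 : SimpleGraph W2),
      SidorenkoHost.{u} G1 → SidorenkoHost.{u} G2 →
        SidorenkoHost.{u} (G1 ⊕g G2) ∧
          SidorenkoHost.{u} ((G1 ⊕g G2) ⊔ completeBipartiteGraph W1 W2)) ∧
    (∀ (n : ℕ) (q : Fin n → ℕ) (U : Set (Fin n → ℕ)), IsUpperSet U →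
      SidorenkoHost.{u} (torusGraph n q U)) :=
  ⟨fun n k s hk _ _ H hH => genKneser_sidorenko n k s hk H hH,
   fun _ _ _ _ G hG _ _ H hH => cograph_sidorenko H hH G hG,
   fun _ _ _ _ _ _ G1 G2 h1 h2 => closure_sum_join G1 G2 h1 h2,
   fun n q U hU => torusGraph_sidorenkoHost n q U hU⟩

end Vale.Agent.Results.P050.A000000_Combined4
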