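import Mathlib
import Vale.Agent.P050.Kneser
import Vale.Agent.P050.Closure
import Vale.Agent.P050.Cograph
import Vale.Agent.P050.Hamming

namespace Vale.Agent.Results.P050.A00000_Combined3

open Vale.Agent.P050

/-- The class of Sidorenko hosts (graphs `G` with `t(H,G) ≥ p(G)^{e(H)}` for every bipartite `H`)
contains all generalised Kneser graphs, all cographs and all graphs on words in which adjacency is an
upward closed condition on the set of positions where two words differ, and it is closed under disjoint
unions and under joins. -/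
theorem result.{u, v} :
    (∀ n k s : ℕ, k ≤ n → SidorenkoHost.{u} (genKneser n k s)) ∧
    (∀ (W : Type v) [Fintype W] [DecidableEq W] [Nonempty W] (G : SimpleGraph W),
      IsCograph G → SidorenkoHost.{u} G) ∧
    (∀ (W1 W2 : Type v) [Fintype W1] [Fintype W2] [Nonempty W1] [Nonempty W2]
      (G1 : SimpleGraph W1) (G2 : SimpleGraph W2),
      SidorenkoHost.{u} G1 → SidorenkoHost.{u} G2 →
        SidorenkoHost.{u} (G1 ⊕g G2) ∧
          SidorenkoHost.{u} ((G1 ⊕g G2) ⊔ completeBipartiteGraph W1 W2)) ∧
    (∀ (n : ℕ) (q : Fin n → ℕ) (S : Set (Finset (Fin n))), IsUpperSet S →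
      SidorenkoHost.{u} (hammingGraph n q S)) :=
  ⟨fun n k s hk _ _ H hH => genKneser_sidorenko n k s hk H hH,
   fun _ _ _ _ G hG _ _ H hH => cograph_sidorenko H hH G hG,
   fun _ _ _ _ _ _ G1 G2 h1 h2 => closure_sum_join G1 G2 h1 h2,
   fun n q S hS => hammingGraph_sidorenkoHost n q S hS⟩

end Vale.Agent.Results.P050.A00000_Combined3
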