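import Mathlib
import Vale.Agent.P050.Kneser

namespace Vale.Agent.Results.P050.A_KneserHosts

open Vale.Agent.P050

/-- Sidorenko's inequality `t(H,G) ≥ p(G)^{e(H)}` for every bipartite graph `H` and every
generalised Kneser graph `G = K(n,k,s)`. -/
theorem result (n k s : ℕ) (hk : k ≤ n) {V : Type*} [Fintype V]
    (H : SimpleGraph V) (hH : H.IsBipartite) :
    edgeDensity (genKneser n k s) ^ Nat.card H.edgeSet ≤ homDensity H (genKneser n k s) :=
  genKneser_sidorenko n k s hk H hH

end Vale.Agent.Results.P050.A_KneserHosts
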