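import Mathlib
import Vale.Agent.P050.Closure

namespace Vale.Agent.Results.P050.B_JoinUnionClosure

open Vale.Agent.P050

/-- The class of host graphs `G` for which Sidorenko's inequality holds against all bipartite `H`
is closed under disjoint unions and under joins. -/
theorem result.{u, v} {W1 W2 : Type v} [Fintype W1] [Fintype W2] [Nonempty W1] [Nonempty W2]
    (G1 : SimpleGraph W1) (G2 : SimpleGraph W2)
    (h1 : SidorenkoHost.{u} G1) (h2 : SidorenkoHost.{u} G2) :
    SidorenkoHost.{u} (G1 ⊕g G2) ∧
      SidorenkoHost.{u} ((G1 ⊕g G2) ⊔ completeBipartiteGraph W1 W2) :=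
  closure_sum_join G1 G2 h1 h2

end Vale.Agent.Results.P050.B_JoinUnionClosure
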