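import Mathlib
import Vale.Agent.P050.Cograph

namespace Vale.Agent.Results.P050.CographHosts

open Vale.Agent.P050

/-- Sidorenko's inequality `t(H,G) ≥ p(G)^{e(H)}` for every bipartite graph `H` and every
cograph `G`. -/
theorem result {V W : Type*} [Fintype V] [Fintype W] [DecidableEq W] [Nonempty W]
    (H : SimpleGraph V) (hH : H.IsBipartite) (G : SimpleGraph W) (hG : IsCograph G) :
    edgeDensity G ^ Nat.card H.edgeSet ≤ homDensity H G :=
  cograph_sidorenko H hH G hG

end Vale.Agent.Results.P050.CographHosts
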